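import Vale.Agent.P355.H790U.B0
import Vale.Agent.P355.H790U.B1

/-! All bridge records together. -/

namespace Vale.Agent.P355.H790U

open Vale.Agent.P355

def oT : List (ℕ × ℕ) := B0.out ++ (B1.out)

theorem eP : B0.Pc + (B1.Pc) = PT := by decide +kernel
theorem eQ : B0.Qc + (B1.Qc) = QT := by decide +kernel
theorem eM : B0.Mc + (B1.Mc) = MB := by decide +kernel

theorem br4 (x : Fin 7 → Fin 7 → ℂ) (hx : H138.Good false x) (_hN : H182.N7x x) :
    H693W.BrK 4 46656 x 80 tr Vale.Agent.P355.H950U.ct oT PT QT MB := by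
  rw [← eP, ← eQ, ← eM]
  exact ((H790.Br4.brK_of_ckP hx.1 B0.ck).app (H790.Br4.brK_of_ckP hx.1 B1.ck))

end Vale.Agent.P355.H790U
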